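import Mathlib

/-!
# Packing families: geometric decay of the depth

`F` a finite family of nodes of a forest (partial order by inclusion, the nodes above a node form a
chain), `w ≥ 0`, packing `∑ w Q' ≤ B w Q` over the `Q' ≤ Q` of the family.  The depth
`N Q = #{P ∈ F, Q ≤ P}`.  The mass of the nodes of depth `> lam` is at most `(1 - 1/B)^lam` times the
whole mass.
-/

namespace Vale.Agent.P141.H367

open Finset

noncomputable section

open scoped Classical

variable {α : Type*} [PartialOrder α]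

/-- the depth of a node in the family -/
def dep (F : Finset α) (Q : α) : ℕ := #{P ∈ F | Q ≤ P}

/-- mass of the nodes of depth `> i` -/
def mas (F : Finset α) (w : α → ℝ) (i : ℕ) : ℝ := ∑ Q ∈ F with i < dep F Q, w Q

theorem dep_pos {F : Finset α} {Q : α} (hQ : Q ∈ F) : 0 < dep F Q := by
  unfold dep
  exact card_pos.2 ⟨Q, by simp [hQ]⟩

theorem dep_anti {F : Finset α} {P Q : α} (h : Q ≤ P) : dep F P ≤ dep F Q := by
  unfold dep
  apply card_le_card
  intro R hR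
  simp only [mem_filter] at hR ⊢
  exact ⟨hR.1, h.trans hR.2⟩

theorem dep_lt {F : Finset α} {P Q : α} (hQ : Q ∈ F) (h : Q < P) : dep F P < dep F Q := by
  unfold dep
  apply card_lt_card
  refine ⟨?_, ?_⟩
  · intro R hR
    simp only [mem_filter] at hR ⊢
    exact ⟨hR.1, h.le.trans hR.2⟩
  · intro hs
    have hQ' : Q ∈ ({P' ∈ F | Q ≤ P'} : Finset α) := by simp [hQ]
    have := hs hQ'
    simp only [mem_filter] at this
    exact absurd (h.trans_le this.2) (lt_irrefl _)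

/-- every depth between `1` and the depth of `Q` occurs above `Q` -/
theorem exists_dep {F : Finset α}
    (hch : ∀ Q ∈ F, ∀ P ∈ F, ∀ P' ∈ F, Q ≤ P → Q ≤ P' → P ≤ P' ∨ P' ≤ P)
    {Q : α} (hQ : Q ∈ F) {i : ℕ} (h1 : 1 ≤ i) (hi : i ≤ dep F Q) :
    ∃ P ∈ F, Q ≤ P ∧ dep F P = i := by
  set A : Finset α := {P ∈ F | Q ≤ P} with hA
  have hmaps : ∀ P ∈ A, dep F P ∈ Icc 1 (dep F Q) := by
    intro P hP
    simp only [hA, mem_filter] at hP
    exact mem_Icc.2 ⟨dep_pos hP.1, dep_anti hP.2⟩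
  have hinj : Set.InjOn (dep F) (A : Set α) := by
    intro P hP P' hP' he
    have hP := (mem_filter.1 (mem_coe.1 hP))
    have hP' := (mem_filter.1 (mem_coe.1 hP'))
    rcases hch Q hQ P hP.1 P' hP'.1 hP.2 hP'.2 with h | h
    · rcases h.lt_or_eq with h | h
      · exact absurd he (dep_lt hP.1 h).ne'
      · exact h
    · rcases h.lt_or_eq with h | h
      · exact absurd he (dep_lt hP'.1 h).ne
      · exact h.symm
  have hcard : #(Icc 1 (dep F Q)) ≤ #A := by
    rw [Nat.card_Icc]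
    have : #A = dep F Q := rfl
    omega
  have hsurj := Finset.surj_on_of_inj_on_of_card_le (s := A) (t := Icc 1 (dep F Q))
    (fun P _ => dep F P) hmaps (fun a b ha hb he => hinj (mem_coe.2 ha) (mem_coe.2 hb) he) hcard i
    (mem_Icc.2 ⟨h1, hi⟩)
  obtain ⟨P, hP, he⟩ := hsurj
  have hP' := (mem_filter.1 hP)
  exact ⟨P, hP'.1, hP'.2, he.symm⟩

/-- one step -/
theorem mas_step {F : Finset α}
    (hch : ∀ Q ∈ F, ∀ P ∈ F, ∀ P' ∈ F, Q ≤ P → Q ≤ P' → P ≤ P' ∨ P' ≤ P)
    {w : α → ℝ} (hw : ∀ Q ∈ F, 0 ≤ w Q) {B : ℝ}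
    (hp : ∀ Q ∈ F, ∑ Q' ∈ F with Q' ≤ Q, w Q' ≤ B * w Q) (i : ℕ) :
    mas F w i ≤ B * (mas F w i - mas F w (i + 1)) := by
  have hsplit : mas F w i - mas F w (i + 1) = ∑ Q ∈ F with dep F Q = i + 1, w Q := by
    unfold mas
    have : ({Q ∈ F | i < dep F Q} : Finset α) =
        ({Q ∈ F | i + 1 < dep F Q} : Finset α) ∪ ({Q ∈ F | dep F Q = i + 1} : Finset α) := by
      ext Q
      simp only [mem_filter, mem_union]
      constructor
      · rintro ⟨h, h'⟩
        rcases Nat.lt_or_ge (i + 1) (dep F Q) with h2 | h2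
        · exact Or.inl ⟨h, h2⟩
        · exact Or.inr ⟨h, by omega⟩
      · rintro (⟨h, h'⟩ | ⟨h, h'⟩)
        · exact ⟨h, by omega⟩
        · exact ⟨h, by omega⟩
    rw [this, sum_union]
    · ring
    · rw [disjoint_left]
      intro Q h1 h2
      simp only [mem_filter] at h1 h2
      omega
  rw [hsplit, mul_sum]
  refine le_trans ?_ (sum_le_sum fun P hP => hp P (mem_filter.1 hP).1)
  unfold mas
  calc ∑ Q ∈ F with i < dep F Q, w Q
      ≤ ∑ Q ∈ F with i < dep F Q, ∑ P ∈ F with dep F P = i + 1, if Q ≤ P then w Q else 0 := by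
        apply sum_le_sum
        intro Q hQ
        simp only [mem_filter] at hQ
        obtain ⟨P, hP, hQP, hd⟩ := exists_dep hch hQ.1 (Nat.le_add_left 1 i) hQ.2
        have hmem : P ∈ ({P ∈ F | dep F P = i + 1} : Finset α) := by simp [hP, hd]
        have h0 : ∀ R ∈ ({P ∈ F | dep F P = i + 1} : Finset α),
            0 ≤ (if Q ≤ R then w Q else 0 : ℝ) := by
          intro R _
          split_ifs
          · exact hw Q hQ.1
          · exact le_rfl
        have := single_le_sum h0 hmem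
        simpa [hQP] using this
    _ = ∑ P ∈ F with dep F P = i + 1, ∑ Q ∈ F with i < dep F Q, if Q ≤ P then w Q else 0 :=
        sum_comm
    _ ≤ ∑ P ∈ F with dep F P = i + 1, ∑ Q ∈ F with Q ≤ P, w Q := by
        apply sum_le_sum
        intro P _
        rw [← sum_filter, filter_filter]
        apply sum_le_sum_of_subset_of_nonneg
        · intro Q hQ
          simp only [mem_filter] at hQ ⊢
          exact ⟨hQ.1, hQ.2.2⟩
        · intro Q hQ _
          exact hw Q (mem_filter.1 hQ).1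

theorem mas_nonneg {F : Finset α} {w : α → ℝ} (hw : ∀ Q ∈ F, 0 ≤ w Q) (i : ℕ) :
    0 ≤ mas F w i := sum_nonneg fun Q hQ => hw Q (mem_filter.1 hQ).1

/-- **Geometric decay.** -/
theorem mas_le {F : Finset α}
    (hch : ∀ Q ∈ F, ∀ P ∈ F, ∀ P' ∈ F, Q ≤ P → Q ≤ P' → P ≤ P' ∨ P' ≤ P)
    {w : α → ℝ} (hw : ∀ Q ∈ F, 0 ≤ w Q) {B : ℝ} (hB : 1 ≤ B)
    (hp : ∀ Q ∈ F, ∑ Q' ∈ F with Q' ≤ Q, w Q' ≤ B * w Q) (lam : ℕ) :
    ∑ Q ∈ F with lam < dep F Q, w Q ≤ (1 - 1 / B) ^ lam * ∑ Q ∈ F, w Q := by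
  have hB0 : 0 < B := by linarith
  have hstep : ∀ i, mas F w (i + 1) ≤ (1 - 1 / B) * mas F w i := by
    intro i
    have h := mas_step hch hw hp i
    have : B * mas F w (i + 1) ≤ (B - 1) * mas F w i := by linarith
    calc mas F w (i + 1) = (B * mas F w (i + 1)) / B := by field_simp
      _ ≤ ((B - 1) * mas F w i) / B := by gcongr
      _ = (1 - 1 / B) * mas F w i := by field_simp
  have h0 : 0 ≤ 1 - 1 / B := by
    rw [sub_nonneg, div_le_one hB0]
    exact hB
  induction lam with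
  | zero =>
    rw [pow_zero, one_mul]
    apply sum_le_sum_of_subset_of_nonneg (filter_subset _ _)
    intro Q hQ _
    exact hw Q hQ
  | succ n ih =>
    calc ∑ Q ∈ F with n + 1 < dep F Q, w Q = mas F w (n + 1) := rfl
      _ ≤ (1 - 1 / B) * mas F w n := hstep n
      _ ≤ (1 - 1 / B) * ((1 - 1 / B) ^ n * ∑ Q ∈ F, w Q) := by
        apply mul_le_mul_of_nonneg_left ih h0
      _ = (1 - 1 / B) ^ (n + 1) * ∑ Q ∈ F, w Q := by ring

/-- **Geometric decay**, for any relation `r Q P` (`Q` below `P`). -/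
theorem mas_le_rel {β : Type*} (r : β → β → Prop) (hr : ∀ a, r a a)
    (ht : ∀ a b c, r a b → r b c → r a c) (ha : ∀ a b, r a b → r b a → a = b) {F : Finset β}
    (hch : ∀ Q ∈ F, ∀ P ∈ F, ∀ P' ∈ F, r Q P → r Q P' → r P P' ∨ r P' P)
    {w : β → ℝ} (hw : ∀ Q ∈ F, 0 ≤ w Q) {B : ℝ} (hB : 1 ≤ B)
    (hp : ∀ Q ∈ F, ∑ Q' ∈ F with r Q' Q, w Q' ≤ B * w Q) (lam : ℕ) :
    ∑ Q ∈ F with lam < #{P ∈ F | r Q P}, w Q ≤ (1 - 1 / B) ^ lam * ∑ Q ∈ F, w Q := by
  let _i : PartialOrder β :=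
    { le := r
      le_refl := hr
      le_trans := ht
      le_antisymm := ha }
  exact mas_le (F := F) hch hw hB hp lam

/-- the factor as an exponential -/
theorem pow_exp_le {B : ℝ} (hB : 1 ≤ B) (lam : ℕ) :
    (1 - 1 / B) ^ lam ≤ Real.exp (-(lam / B)) := by
  have hB0 : 0 < B := by linarith
  have h0 : 0 ≤ 1 - 1 / B := by
    rw [sub_nonneg, div_le_one hB0]
    exact hB
  have h1 : 1 - 1 / B ≤ Real.exp (-(1 / B)) := by
    have := Real.add_one_le_exp (-(1 / B))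
    linarith
  calc (1 - 1 / B) ^ lam ≤ Real.exp (-(1 / B)) ^ lam := by gcongr
    _ = Real.exp (-(lam / B)) := by
      rw [← Real.exp_nat_mul]
      congr 1
      ring

/-- with a root: all nodes have mass at most `B M` -/
theorem mas_root {β : Type*} (r : β → β → Prop) (hr : ∀ a, r a a)
    (ht : ∀ a b c, r a b → r b c → r a c) (ha : ∀ a b, r a b → r b a → a = b) {F : Finset β}
    (hch : ∀ Q ∈ F, ∀ P ∈ F, ∀ P' ∈ F, r Q P → r Q P' → r P P' ∨ r P' P)
    {w : β → ℝ} (hw : ∀ Q ∈ F, 0 ≤ w Q) {B M : ℝ} (hB : 1 ≤ B)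
    (hp : ∀ Q ∈ F, ∑ Q' ∈ F with r Q' Q, w Q' ≤ B * w Q)
    (hM : ∑ Q ∈ F, w Q ≤ B * M) (lam : ℕ) :
    ∑ Q ∈ F with lam < #{P ∈ F | r Q P}, w Q ≤ Real.exp (-(lam / B)) * (B * M) := by
  have h0 : 0 ≤ ∑ Q ∈ F, w Q := sum_nonneg hw
  refine (mas_le_rel r hr ht ha hch hw hB hp lam).trans ?_
  exact mul_le_mul (pow_exp_le hB lam) hM h0 (Real.exp_nonneg _)

/-- **Disjoint layers.** At a fixed depth the nodes are pairwise incomparable. -/
theorem layer_anti {β : Type*} (r : β → β → Prop) (hr : ∀ a, r a a)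
    (ht : ∀ a b c, r a b → r b c → r a c) (ha : ∀ a b, r a b → r b a → a = b) {F : Finset β}
    {P Q : β} (hQ : Q ∈ F) (hPQ : r Q P) (hne : Q ≠ P) :
    #{R ∈ F | r P R} < #{R ∈ F | r Q R} := by
  let _i : PartialOrder β :=
    { le := r
      le_refl := hr
      le_trans := ht
      le_antisymm := ha }
  exact dep_lt (F := F) hQ (lt_of_le_of_ne hPQ hne)

end

end Vale.Agent.P141.H367
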